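import Vale.Agent.P281.H495.TW.Loc
import Vale.Agent.P281.H383.Gen.Dich
import Vale.Agent.P281.ISO.DefsQ

/-!
P281 (helper495), project T-W, block W1-B of helper308 (`dom`): a prime divisor `E` with image the
prime divisor `D` dominates it (in the sense of `J.Dominates`), over every open subset of `D`.
-/

set_option linter.all false

open Set Filter Metric Vale.Agent.P281 Vale.Agent.P281.H713
open Vale.Agent.P281.H64.Thin (IsThinSet)
open Vale.Agent.P281.H64 (Cm)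
open Vale.Agent.P281.H64.Gen (IsAnalyticSet IsSmallSet)
open Vale.Agent.P281.H150.Gen (AnIn SThin holAt_symm holAt_chart)
open Vale.Agent.P281.H511.Gen
open Vale.Agent.P281.H383.Gen (inc prj inc_same inc_succAbove prj_inc inc_prj ext_fin
  continuous_inc continuous_prj dist_inc GoodVal core')
open scoped Topology ContDiff Manifold

noncomputable section

namespace Vale.Agent.P281.H495.TW

/-- Baire -/
theorem not_sthin_ball {q : ℕ} {c : Cm q} {r : ℝ} (hr : 0 < r) : ¬ SThin (Cm q) (ball c r) := by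
  rintro ⟨H, hH, hsub⟩
  have hd : Dense (⋂ k, (H k)ᶜ) := by
    refine dense_iInter_of_isOpen_nat (fun k => (hH k).1.isOpen_compl) fun k => ?_
    intro y
    rw [mem_closure_iff_nhds]
    intro N hN
    obtain ⟨g, hg, hne, hev⟩ := (hH k).2 y
    obtain ⟨z, hz, hz1, hz2⟩ := ((Filter.not_eventually.1 hne).and_eventually
      (hev.and hN)).exists
    exact ⟨z, hz2, fun h => hz (hz1 h)⟩
  obtain ⟨z, hz, hz'⟩ := hd.exists_mem_open isOpen_ball ⟨c, mem_ball_self hr⟩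
  obtain ⟨k, hk⟩ := mem_iUnion.1 (hsub hz')
  exact mem_iInter.1 hz k hk

section coord

variable {n : ℕ} {X : Type} [TopologicalSpace X] [ChartedSpace (Cm n) X]
  [IsManifold 𝓘(ℂ, Cm n) ω X]

theorem holV_coordΨ {Ψ : OpenPartialHomeomorph X (Cm n)}
    (hΨ : ∀ x ∈ Ψ.source, ∀ h : X → ℂ, J.HolAt (Cm n) h x ↔ AnalyticAt ℂ (h ∘ Ψ.symm) (Ψ x))
    {y : X} (hy : y ∈ Ψ.source) : HolV (Cm n) (fun z => Ψ z) y := by
  refine HolV.pi fun i => ?_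
  refine (hΨ y hy _).2 ?_
  refine ((ContinuousLinearMap.proj (R := ℂ) (φ := fun _ : Fin n => ℂ) i).analyticAt _).congr ?_
  filter_upwards [Ψ.open_target.mem_nhds (Ψ.map_source hy)] with w hw
  show w i = Ψ (Ψ.symm w) i
  rw [Ψ.right_inv hw]

theorem coord_injΨ {Ψ : OpenPartialHomeomorph X (Cm n)}
    (hΨ : ∀ x ∈ Ψ.source, ∀ h : X → ℂ, J.HolAt (Cm n) h x ↔ AnalyticAt ℂ (h ∘ Ψ.symm) (Ψ x))
    {y : X} (hy : y ∈ Ψ.source) {ζ : Cm n}
    (hζ : ∀ i, dV (Cm n) (fun z => Ψ z i) y ζ = 0) : ζ = 0 := by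
  have hΨV := holV_coordΨ hΨ hy
  have hχ : HolV (Cm n) (chartAt (Cm n) y : X → Cm n) y := HolV.chart (mem_chart_source _ _)
  obtain ⟨A, hA⟩ := dV_chart_leftInv (E := Cm n) (mem_chart_source (Cm n) y)
  have h1 : ∀ i, dV (Cm n) (fun z => chartAt (Cm n) y z i) y ζ = 0 := by
    intro i
    have h2 : AnalyticAt ℂ ((fun z => chartAt (Cm n) y z i) ∘ Ψ.symm) (Ψ y) :=
      (hΨ y hy _).1 (hχ.eval i)
    have h3 : (fun z => chartAt (Cm n) y z i) =ᶠ[𝓝 y]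
        fun z => ((fun z => chartAt (Cm n) y z i) ∘ Ψ.symm) (Ψ z) := by
      filter_upwards [Ψ.open_source.mem_nhds hy] with z hz
      show chartAt (Cm n) y z i = chartAt (Cm n) y (Ψ.symm (Ψ z)) i
      rw [Ψ.left_inv hz]
    have h4 : dV (Cm n) (fun z => Ψ z) y ζ = 0 :=
      funext fun j => (dV_apply hΨV j ζ).trans (hζ j)
    rw [dV_congr h3, dV_comp_contDiff (G := (fun z => chartAt (Cm n) y z i) ∘ Ψ.symm)
      (v := fun z => Ψ z) h2.contDiffAt hΨV]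
    show fderiv ℂ _ _ (dV (Cm n) (fun z => Ψ z) y ζ) = 0
    rw [h4, map_zero]
  have h5 : dV (Cm n) (chartAt (Cm n) y : X → Cm n) y ζ = 0 :=
    funext fun i => (dV_apply hχ i ζ).trans (h1 i)
  have h6 : A (dV (Cm n) (chartAt (Cm n) y : X → Cm n) y ζ) = ζ :=
    congrArg (fun T : Cm n →L[ℂ] Cm n => T ζ) hA
  rw [h5, map_zero] at h6
  exact h6.symm

/-- the differential of a chart is surjective -/
theorem chart_surj {x₀ x : X} (hx : x ∈ (chartAt (Cm n) x₀).source) :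
    Function.Surjective (dV (Cm n) (chartAt (Cm n) x₀ : X → Cm n) x) := by
  have hj : jac (Cm n) (chartAt (Cm n) x₀ : X → Cm n) x ≠ 0 := jac_chart_ne_zero hx
  have h2 : IsUnit ((dV (Cm n) (chartAt (Cm n) x₀ : X → Cm n) x : Cm n →ₗ[ℂ] Cm n)) := by
    rw [LinearMap.isUnit_iff_isUnit_det]
    exact isUnit_iff_ne_zero.2 hj
  exact ((Module.End.isUnit_iff _).1 h2).2

end coord

section

variable {n q : ℕ} {X Z : Type} [TopologicalSpace X] [T2Space X] [CompactSpace X]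
  [ChartedSpace (Cm n) X] [IsManifold 𝓘(ℂ, Cm n) ω X] [TopologicalSpace Z] [T2Space Z]
  [ChartedSpace (Cm (q + 1)) Z] [IsManifold 𝓘(ℂ, Cm (q + 1)) ω Z] {g : X → Z}

theorem dom_succ (hg : ContMDiff 𝓘(ℂ, Cm n) 𝓘(ℂ, Cm (q + 1)) ω g) {E : Set X} {D : Set Z}
    (hE : J.IsPrime (Cm n) E) (hD : J.IsPrime (Cm (q + 1)) D) (him : closure (g '' E) = D) {y₁ : Z}
    (hy₁ : y₁ ∈ D) {t : Set Z} (ht : t ∈ 𝓝 y₁) :
    ∃ x ∈ E, g x ∈ t ∧ ∃ e d, J.IsLocalEq (Cm n) E e x ∧ J.dif (Cm n) e x ≠ 0 ∧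
      J.IsLocalEq (Cm (q + 1)) D d (g x) ∧ J.dif (Cm (q + 1)) d (g x) ≠ 0 ∧
      ∀ η : Cm (q + 1), J.dif (Cm (q + 1)) d (g x) η = 0 → ∃ ξ : Cm n,
        J.dif (Cm n) e x ξ = 0 ∧ mfderiv 𝓘(ℂ, Cm n) 𝓘(ℂ, Cm (q + 1)) g x ξ = η := by
  -- the image
  have hgE : g '' E = D := by
    rw [← him]
    exact ((hE.1.isCompact.image hg.continuous).isClosed.closure_eq).symm
  -- a smooth point of `D` in `t`
  obtain ⟨t', ht', ht'o, hyt'⟩ := mem_nhds_iff.1 ht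
  obtain ⟨y₀, hy₀t, hy₀⟩ := mem_closure_iff_nhds.1 (subset_closure_sm hD.2.1 hy₁) t'
    (ht'o.mem_nhds hyt')
  obtain ⟨hy₀D, d, hd, hdd⟩ := hy₀
  obtain ⟨σ, Ψ, hy₀Ψ, hσ, hΨ⟩ := exists_coord (isLocalEq_holAt hd) hdd
  have hev : ∀ᶠ y in 𝓝 y₀, (y ∈ D ↔ d y = 0) ∧ J.IsLocalEq (Cm (q + 1)) D d y ∧
      J.dif (Cm (q + 1)) d y ≠ 0 ∧ y ∈ t' :=
    (isLocalEq_mem_iff hd).and ((isLocalEq_eventually hd).and
      ((eventually_dif_ne (isLocalEq_holAt hd) hdd).and (ht'o.mem_nhds hy₀t)))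
  obtain ⟨V₀, hV₀, hV₀o, hy₀V₀⟩ := _root_.eventually_nhds_iff.1 hev
  set O : Set Z := Ψ.source ∩ V₀ with hO
  have hOo : IsOpen O := Ψ.open_source.inter hV₀o
  have hΨσ : ∀ y ∈ O, y ∈ D → Ψ y σ = 0 := fun y hy hyG =>
    (hσ y hy.1).trans ((hV₀ y hy.2).1.1 hyG)
  have hΨD : ∀ y ∈ O, Ψ y σ = 0 → y ∈ D := fun y hy h =>
    (hV₀ y hy.2).1.2 ((hσ y hy.1).symm.trans h)
  have h00 : Ψ y₀ σ = 0 := hΨσ y₀ ⟨hy₀Ψ, hy₀V₀⟩ hy₀D
  have h1 : Ψ.target ∩ Ψ.symm ⁻¹' O ∈ 𝓝 (Ψ y₀) := by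
    refine inter_mem (Ψ.open_target.mem_nhds (Ψ.map_source hy₀Ψ)) ?_
    have h2 := Ψ.continuousAt_symm (Ψ.map_source hy₀Ψ)
    refine h2 ?_
    rw [Ψ.left_inv hy₀Ψ]
    exact hOo.mem_nhds ⟨hy₀Ψ, hy₀V₀⟩
  obtain ⟨r, hr, hb⟩ := Metric.mem_nhds_iff.1 h1
  -- the map to `ℂ^q`
  set u : X → Cm q := fun x => prj σ (Ψ (g x)) with hu
  have huV : ∀ x, g x ∈ O → HolV (Cm n) u x := by
    intro x hx
    have h2 : HolV (Cm n) (fun x => Ψ (g x)) x :=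
      HolV.comp (E' := Cm (q + 1)) (holV_coordΨ hΨ hx.1) (hg x)
    exact HolV.pi fun i => h2.eval (σ.succAbove i)
  -- charts of `X`
  set W : X → Set (Cm n) := fun x₀ =>
    (chartAt (Cm n) x₀).target ∩ (chartAt (Cm n) x₀).symm ⁻¹' (g ⁻¹' O) with hW
  have hWo : ∀ x₀, IsOpen (W x₀) := fun x₀ =>
    ContinuousOn.isOpen_inter_preimage (chartAt (Cm n) x₀).continuousOn_symm
      (chartAt (Cm n) x₀).open_target (hOo.preimage hg.continuous)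
  set F : X → Cm n → Cm q := fun x₀ v => u ((chartAt (Cm n) x₀).symm v) with hF
  have hFa : ∀ x₀, ∀ v ∈ W x₀, AnalyticAt ℂ (F x₀) v := by
    intro x₀ v hv
    have hs : (chartAt (Cm n) x₀).symm v ∈ (chartAt (Cm n) x₀).source :=
      (chartAt (Cm n) x₀).map_target hv.1
    have h2 := (HolV.rep hs (huV _ hv.2)).analyticAt
    rwa [(chartAt (Cm n) x₀).right_inv hv.1] at h2
  have hEan := isAnalyticSet_prime hE
  have hAn : ∀ x₀, AnIn (W x₀) ((chartAt (Cm n) x₀).symm ⁻¹' E) := by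
    intro x₀ v hv
    obtain ⟨U, ι, h, hU, hvU, hh, hAU⟩ := hEan ((chartAt (Cm n) x₀).symm v)
    refine ⟨W x₀ ∩ (chartAt (Cm n) x₀).symm ⁻¹' U, ι,
      fun i w => h i ((chartAt (Cm n) x₀).symm w), ?_, ⟨hv, hvU⟩, ?_, ?_⟩
    · exact ContinuousOn.isOpen_inter_preimage
        ((chartAt (Cm n) x₀).continuousOn_symm.mono inter_subset_left) (hWo x₀) hU
    · intro i w hw
      have h1 : ContMDiffAt 𝓘(ℂ, Cm n) 𝓘(ℂ, ℂ) ω
          (fun w => h i ((chartAt (Cm n) x₀).symm w)) w :=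
        ContMDiffAt.comp w (hh i _ hw.2) (holAt_symm hw.1.1)
      exact (contMDiffAt_iff_contDiffAt.1 h1).analyticAt
    · intro w hw
      exact hAU _ hw.2
  -- there is a good value
  have hgood : ∃ x₀, (GoodVal (W x₀) ((chartAt (Cm n) x₀).symm ⁻¹' E) (F x₀)).Nonempty := by
    by_contra hcon
    push Not at hcon
    have hS : ∀ x₀, SThin (Cm q) (F x₀ '' ((chartAt (Cm n) x₀).symm ⁻¹' E ∩ W x₀)) := by
      intro x₀
      refine (core' q _ (Cm n) rfl (W x₀) ((chartAt (Cm n) x₀).symm ⁻¹' E) (F x₀) (hWo x₀)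
        (hFa x₀) (hAn x₀)).mono ?_
      rintro _ ⟨v, hv, rfl⟩
      refine ⟨v, ⟨hv, ?_⟩, rfl⟩
      rw [hcon x₀]
      exact notMem_empty _
    obtain ⟨s, hs⟩ := CompactSpace.elim_nhds_subcover (fun x₀ : X => (chartAt (Cm n) x₀).source)
      (fun x₀ : X => (chartAt (Cm n) x₀).open_source.mem_nhds (mem_chart_source _ x₀))
    refine not_sthin_ball (c := prj σ (Ψ y₀)) hr
      ((SThin.iUnion (S := fun x₀ : s => F x₀ '' ((chartAt (Cm n) (x₀ : X)).symm ⁻¹' E ∩ W x₀))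
        fun x₀ => hS x₀).mono ?_)
    intro w hw
    have hw1 : inc σ w ∈ ball (Ψ y₀) r := dist_inc σ h00 hr hw
    obtain ⟨hw2, hw3⟩ := hb hw1
    have hw4 : Ψ (Ψ.symm (inc σ w)) = inc σ w := Ψ.right_inv hw2
    have hw5 : Ψ.symm (inc σ w) ∈ D := hΨD _ hw3 (by rw [hw4, inc_same])
    rw [← hgE] at hw5
    obtain ⟨x, hxE, hx⟩ := hw5
    have h6 : x ∈ ⋃ y ∈ s, (chartAt (Cm n) y).source := by rw [hs]; trivial
    obtain ⟨x₀, hx₀, hxx₀⟩ := mem_iUnion₂.1 h6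
    have h7 : (chartAt (Cm n) x₀).symm (chartAt (Cm n) x₀ x) = x :=
      (chartAt (Cm n) x₀).left_inv hxx₀
    refine mem_iUnion.2 ⟨⟨x₀, hx₀⟩, chartAt (Cm n) x₀ x,
      ⟨?_, (chartAt (Cm n) x₀).map_source hxx₀, ?_⟩, ?_⟩
    · show (chartAt (Cm n) x₀).symm (chartAt (Cm n) x₀ x) ∈ E
      rw [h7]; exact hxE
    · show g ((chartAt (Cm n) x₀).symm (chartAt (Cm n) x₀ x)) ∈ O
      rw [h7, hx]; exact hw3
    · show prj σ (Ψ (g ((chartAt (Cm n) x₀).symm (chartAt (Cm n) x₀ x)))) = w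
      rw [h7, hx, hw4, prj_inc]
  obtain ⟨x₀, _, V', i1, i2, i3, W', φ', hW', hφ', x', hx', hsx', rfl⟩ := hgood
  have hC' : CompleteSpace V' := FiniteDimensional.complete ℂ V'
  set φ := chartAt (Cm n) x₀ with hφ
  set v₁ := φ' x' with hv₁
  have hv₁W : v₁ ∈ W x₀ := (hφ' x' hx').2.2
  have hv₁E : φ.symm v₁ ∈ E := (hφ' x' hx').2.1
  -- the local equation
  obtain ⟨e, VE, hVE, hxVE, he1, he2, he3⟩ := hE.2.1 (φ.symm v₁)
  set G : Cm n → ℂ := e ∘ φ.symm with hG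
  set W₂ : Set (Cm n) := W x₀ ∩ φ.symm ⁻¹' VE with hW₂
  have hW₂o : IsOpen W₂ := ContinuousOn.isOpen_inter_preimage
    (φ.continuousOn_symm.mono inter_subset_left) (hWo x₀) hVE
  have hpt : ∀ v ∈ W₂, φ.symm v ∈ φ.source ∧ φ (φ.symm v) = v := fun v hv =>
    ⟨φ.map_target hv.1.1, φ.right_inv hv.1.1⟩
  have hGa : ∀ v ∈ W₂, AnalyticAt ℂ G v := by
    intro v hv
    have h2 := (holAt_iff_chart (hpt v hv).1).1 (he1 _ hv.2)
    rwa [← hφ, (hpt v hv).2] at h2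
  have hGd : ∀ v ∈ W₂, (J.dif (Cm n) e (φ.symm v) ≠ 0 ↔ fderiv ℂ G v ≠ 0) := by
    intro v hv
    have h2 := dif_ne_iff_chart (hpt v hv).1 (he1 _ hv.2)
    rwa [← hφ, (hpt v hv).2] at h2
  have hFa₂ : ∀ v ∈ W₂, AnalyticAt ℂ (F x₀) v := fun v hv => hFa x₀ v hv.1
  have hv₁2 : v₁ ∈ W₂ := ⟨hv₁W, hxVE⟩
  have hφ'a := (hφ' x' hx').1
  have hcomp : fderiv ℂ (fun v => F x₀ (φ' v)) x' = (fderiv ℂ (F x₀) v₁).comp (fderiv ℂ φ' x') :=
    ((hFa x₀ v₁ hv₁W).differentiableAt.hasFDerivAt.comp x'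
      hφ'a.differentiableAt.hasFDerivAt).fderiv
  obtain ⟨v, hvW, hv0, hvd, hvs⟩ := exists_sub hW₂o hFa₂ hGa hv₁2 (by
      rw [hcomp] at hsx'
      exact Function.Surjective.of_comp hsx') (by
      -- reducedness
      intro v hv hv0 N hN
      have hxE : φ.symm v ∈ E ∩ VE := ⟨(he2 _ hv.2).2 hv0, hv.2⟩
      have h2 := he3 hxE
      have h3 : φ.source ∩ φ ⁻¹' N ∩ VE ∈ 𝓝 (φ.symm v) := by
        refine inter_mem (inter_mem (φ.open_source.mem_nhds (hpt v hv).1) ?_) (hVE.mem_nhds hv.2)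
        refine (φ.continuousAt (hpt v hv).1) ?_
        rw [(hpt v hv).2]
        exact hN
      obtain ⟨z, ⟨⟨hz1, hz2⟩, hz3⟩, hz4, hz5⟩ := mem_closure_iff_nhds.1 h2 _ h3
      refine ⟨φ z, hz2, ?_, ?_⟩
      · show e (φ.symm (φ z)) = 0
        rw [φ.left_inv hz1]
        exact (he2 z hz3).1 hz4
      · exact (dif_ne_iff_chart hz1 (he1 z hz3)).1 hz5) (by
      -- domination
      intro N hN
      have h2 : AnalyticAt ℂ (fun v => F x₀ (φ' v)) x' :=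
        AnalyticAt.fun_comp (g := F x₀) (f := φ') (hFa x₀ v₁ hv₁W) hφ'a
      have h3 : map (fun v => F x₀ (φ' v)) (𝓝 x') = 𝓝 (F x₀ v₁) :=
        h2.hasStrictFDerivAt.map_nhds_eq_of_surj (LinearMap.range_eq_top.2 hsx')
      rw [← h3, mem_map]
      filter_upwards [hW'.mem_nhds hx', hφ'a.continuousAt.eventually hN,
        hφ'a.continuousAt.eventually (hW₂o.mem_nhds hv₁2)] with w h4 h5 h6
      refine ⟨φ' w, ⟨h5, ?_⟩, rfl⟩
      exact (he2 _ h6.2).1 (hφ' w h4).2.1) (by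
      -- not everything
      intro hcon
      have hle : J.IsLocalEq (Cm n) E e (φ.symm v₁) := ⟨VE, hVE, hxVE, he1, he2, he3⟩
      apply isLocalEq_not_zero hle
      have hs1 := (hpt v₁ hv₁2).1
      have h2 : Tendsto φ (𝓝 (φ.symm v₁)) (𝓝 v₁) := by
        have := (φ.continuousAt hs1).tendsto
        rwa [(hpt v₁ hv₁2).2] at this
      filter_upwards [h2.eventually hcon, φ.open_source.mem_nhds hs1] with z h3 h4
      rw [hG, Function.comp_apply, φ.left_inv h4] at h3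
      exact h3)
  -- back to the manifold
  obtain ⟨hxs, hxv⟩ := hpt v hvW
  set x := φ.symm v with hx
  have hxE : x ∈ E := (he2 _ hvW.2).2 hv0
  have hgx : g x ∈ O := hvW.1.2
  have hle : J.IsLocalEq (Cm n) E e x := ⟨VE, hVE, hvW.2, he1, he2, he3⟩
  have hex : J.HolAt (Cm n) e x := he1 x hvW.2
  have hdex : J.dif (Cm n) e x ≠ 0 := (hGd v hvW).2 hvd
  obtain ⟨hD1, hD2, hD3, hD4⟩ := hV₀ (g x) hgx.2
  refine ⟨x, hxE, ht' hD4, e, d, hle, hdex, hD2, hD3, fun η hη => ?_⟩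
  have hPV : HolV (Cm (q + 1)) (fun z => prj σ (Ψ z)) (g x) :=
    HolV.pi fun i => (holV_coordΨ hΨ hgx.1).eval (σ.succAbove i)
  obtain ⟨ξc, hξ1, hξ2⟩ := hvs (dV (Cm (q + 1)) (fun z => prj σ (Ψ z)) (g x) η)
  obtain ⟨ξ, hξ⟩ := chart_surj hxs ξc
  have k1 : J.dif (Cm n) e x ξ = 0 := by
    have h2 : J.dif (Cm n) e x = (fderiv ℂ (e ∘ φ.symm) (φ x)).comp
        (dV (Cm n) (φ : X → Cm n) x) := dV_eq_chart hxs hex
    rw [h2]
    show fderiv ℂ (e ∘ φ.symm) (φ x) (dV (Cm n) (φ : X → Cm n) x ξ) = 0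
    rw [hξ, hxv]
    exact hξ1
  have k2 : dV (Cm n) u x ξ = dV (Cm (q + 1)) (fun z => prj σ (Ψ z)) (g x) η := by
    rw [dV_eq_chart hxs (huV x hgx)]
    show fderiv ℂ (u ∘ φ.symm) (φ x) (dV (Cm n) (φ : X → Cm n) x ξ) = _
    rw [hξ, hxv]
    exact hξ2
  have k3 : dV (Cm n) u x ξ = dV (Cm (q + 1)) (fun z => prj σ (Ψ z)) (g x)
      (dM (Cm n) (Cm (q + 1)) g x ξ) := by
    have h2 : dV (Cm n) (fun z => prj σ (Ψ (g z))) x =
        (dV (Cm (q + 1)) (fun z => prj σ (Ψ z)) (g x)).comp (dM (Cm n) (Cm (q + 1)) g x) :=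
      dV_comp (E' := Cm (q + 1)) hPV (hg x)
    show dV (Cm n) (fun z => prj σ (Ψ (g z))) x ξ = _
    rw [h2]
    rfl
  -- `d ∘ g` vanishes on `E`
  have k4 : J.dif (Cm (q + 1)) d (g x) (dM (Cm n) (Cm (q + 1)) g x ξ) = 0 := by
    have hdx : J.HolAt (Cm (q + 1)) d (g x) := isLocalEq_holAt hD2
    have h2 : dV (Cm n) (fun z => d (g z)) x =
        (dV (Cm (q + 1)) d (g x)).comp (dM (Cm n) (Cm (q + 1)) g x) :=
      dV_comp (E' := Cm (q + 1)) hdx (hg x)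
    have hdg : J.HolAt (Cm n) (fun z => d (g z)) x := HolV.comp (E' := Cm (q + 1)) hdx (hg x)
    have hex0 : e x = 0 := (he2 x hvW.2).1 hxE
    obtain ⟨w, hw, hwe⟩ := exists_factor hex hex0 hdex hdg (by
      filter_upwards [hVE.mem_nhds hvW.2, hg.continuous.continuousAt.eventually
        (hV₀o.mem_nhds hgx.2)] with z hz1 hz2 hz3
      refine (hV₀ (g z) hz2).1.1 ?_
      rw [← hgE]
      exact mem_image_of_mem g ((he2 z hz1).2 hz3))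
    have h3 := dif_mul_unit hex hex0 hw hwe
    have h4 : dV (Cm n) (fun z => d (g z)) x ξ = 0 := by
      show J.dif (Cm n) (fun z => d (g z)) x ξ = 0
      rw [h3]
      show w x * J.dif (Cm n) e x ξ = 0
      rw [k1, mul_zero]
    rw [h2] at h4
    exact h4
  refine ⟨ξ, k1, ?_⟩
  show dM (Cm n) (Cm (q + 1)) g x ξ = η
  rw [← sub_eq_zero]
  refine coord_injΨ hΨ hgx.1 ?_
  refine ext_fin σ ?_ fun i => ?_
  · have h2 : (fun z => Ψ z σ) =ᶠ[𝓝 (g x)] d := by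
      filter_upwards [Ψ.open_source.mem_nhds hgx.1] with z hz
      exact hσ z hz
    rw [dV_congr h2]
    show J.dif (Cm (q + 1)) d (g x) _ = 0
    rw [map_sub, k4, hη, sub_zero]
  · have h2 : dV (Cm (q + 1)) (fun z => prj σ (Ψ z)) (g x)
        (dM (Cm n) (Cm (q + 1)) g x ξ - η) = 0 := by
      rw [map_sub, ← k3, k2, sub_self]
    have h3 := dV_apply hPV i (dM (Cm n) (Cm (q + 1)) g x ξ - η)
    rw [h2] at h3
    exact h3.symm

end

/-- **W1-B** -/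
theorem dom {n p : ℕ} {X Z : Type} [TopologicalSpace X] [T2Space X] [CompactSpace X]
    [ChartedSpace (Cm n) X] [IsManifold 𝓘(ℂ, Cm n) ω X] [TopologicalSpace Z] [T2Space Z]
    [ChartedSpace (Cm p) Z] [IsManifold 𝓘(ℂ, Cm p) ω Z] {g : X → Z}
    (hg : ContMDiff 𝓘(ℂ, Cm n) 𝓘(ℂ, Cm p) ω g) {E : Set X} {D : Set Z}
    (hE : J.IsPrime (Cm n) E) (hD : J.IsPrime (Cm p) D) (him : closure (g '' E) = D) {y₁ : Z}
    (hy₁ : y₁ ∈ D) {t : Set Z} (ht : t ∈ 𝓝 y₁) :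
    ∃ x ∈ E, g x ∈ t ∧ ∃ e d, J.IsLocalEq (Cm n) E e x ∧ J.dif (Cm n) e x ≠ 0 ∧
      J.IsLocalEq (Cm p) D d (g x) ∧ J.dif (Cm p) d (g x) ≠ 0 ∧
      ∀ η : Cm p, J.dif (Cm p) d (g x) η = 0 → ∃ ξ : Cm n, J.dif (Cm n) e x ξ = 0 ∧
        mfderiv 𝓘(ℂ, Cm n) 𝓘(ℂ, Cm p) g x ξ = η := by
  rcases p with _ | q
  · exfalso
    obtain ⟨y, hy, d, hd, hdd⟩ := hD.2.2.nonempty
    apply hdd
    ext v
    have hv : v = 0 := funext fun i => i.elim0
    rw [hv, map_zero, map_zero]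
  · exact dom_succ hg hE hD him hy₁ ht

/-- hence `E` dominates `D` -/
theorem dominates {n p : ℕ} {X Z : Type} [TopologicalSpace X] [T2Space X] [CompactSpace X]
    [ChartedSpace (Cm n) X] [IsManifold 𝓘(ℂ, Cm n) ω X] [TopologicalSpace Z] [T2Space Z]
    [ChartedSpace (Cm p) Z] [IsManifold 𝓘(ℂ, Cm p) ω Z] {g : X → Z}
    (hg : ContMDiff 𝓘(ℂ, Cm n) 𝓘(ℂ, Cm p) ω g) {E : Set X} {D : Set Z}
    (hE : J.IsPrime (Cm n) E) (hD : J.IsPrime (Cm p) D) (him : closure (g '' E) = D) :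
    J.Dominates (Cm n) (Cm p) g E D := by
  obtain ⟨y, hy, -⟩ := hD.2.2.nonempty
  obtain ⟨x, hx, -, e, d, h1, h2, h3, h4, h5⟩ := dom hg hE hD him hy univ_mem
  exact ⟨hE, him, x, hx, e, d, h1, h2, h3, h4, h5⟩

end Vale.Agent.P281.H495.TW
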