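import Vale.Agent.P281.H150.Gen.Fac

/-!
P281 (helper495), project T-W, block W1-B of helper308: a reduced hypersurface `{G = 0}` which
dominates the base of a submersion `F` has smooth points at which `F|{G = 0}` is submersive.
-/

set_option linter.all false

open Set Filter Metric
open scoped ContDiff Topology

noncomputable section

namespace Vale.Agent.P281.H495.TW

open Vale.Agent.P281.H150.Gen (exists_straight)

section

variable {V : Type} [NormedAddCommGroup V] [NormedSpace ℂ V] [FiniteDimensional ℂ V]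

theorem surj_of_ne {L : V →L[ℂ] ℂ} (h : L ≠ 0) : Function.Surjective L := by
  obtain ⟨v, hv⟩ : ∃ v, L v ≠ 0 := by
    by_contra h'
    push Not at h'
    exact h (ContinuousLinearMap.ext h')
  intro c
  exact ⟨(c / L v) • v, by simp [hv]⟩

/-- a function which vanishes on a smooth hypersurface is bounded by the equation -/
theorem bound_of_zero {G h : V → ℂ} {z : V} (hG : AnalyticAt ℂ G z) (hG0 : G z = 0)
    (hd : fderiv ℂ G z ≠ 0) (hh : AnalyticAt ℂ h z) (h0 : ∀ᶠ x in 𝓝 z, G x = 0 → h x = 0) :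
    ∃ C : ℝ, ∀ᶠ x in 𝓝 z, ‖h x‖ ≤ C * ‖G x‖ := by
  have : CompleteSpace V := FiniteDimensional.complete ℂ V
  obtain ⟨κ, R, hRa, hR0, hRr, hRl⟩ := exists_straight hG (surj_of_ne hd)
  rw [hG0] at hRa hR0 hRr
  have hRt : Tendsto R (𝓝 (0, κ z)) (𝓝 z) := by
    have := hRa.continuousAt.tendsto
    rwa [hR0] at this
  have hhR : AnalyticAt ℂ (fun q => h (R q)) (0, κ z) :=
    AnalyticAt.fun_comp (g := h) (f := R) (by rw [hR0]; exact hh) hRa
  obtain ⟨C, t, ht, hL⟩ := ContDiffAt.exists_lipschitzOnWith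
    (hhR.contDiffAt : ContDiffAt ℂ 1 (fun q => h (R q)) (0, κ z))
  refine ⟨C, ?_⟩
  have c1 : Tendsto (fun x => (G x, κ x)) (𝓝 z) (𝓝 (0, κ z)) := by
    have h1 : ContinuousAt (fun x => (G x, κ x)) z :=
      hG.continuousAt.prodMk κ.continuous.continuousAt
    have h2 := h1.tendsto
    rwa [hG0] at h2
  have c2 : Tendsto (fun x => ((0 : ℂ), κ x)) (𝓝 z) (𝓝 (0, κ z)) :=
    (continuousAt_const.prodMk κ.continuous.continuousAt).tendsto
  filter_upwards [c1.eventually ht, c2.eventually ht, hRl, c2.eventually hRr,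
    c2.eventually (hRt.eventually h0)] with x h1 h2 h3 h4 h5
  have h6 : h (R (0, κ x)) = 0 := h5 h4
  have h7 := hL.dist_le_mul _ h1 _ h2
  rw [h6, h3, dist_zero_right] at h7
  refine h7.trans (le_of_eq ?_)
  rw [Prod.dist_eq, dist_self, dist_zero_right]
  simp

end

section

variable {Q K : Type} [NormedAddCommGroup Q] [NormedSpace ℂ Q] [FiniteDimensional ℂ Q]
  [NormedAddCommGroup K] [NormedSpace ℂ K] [FiniteDimensional ℂ K]

/-- a fibre which meets `{G = 0}` at a smooth point is contained in it, if `{G = 0}` is tangent to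
the fibres at its smooth points -/
theorem sat {G : Q × K → ℂ} {B : Set Q} {b₀ : K} {r : ℝ} (hB : IsOpen B)
    (hG : ∀ z ∈ B ×ˢ ball b₀ r, AnalyticAt ℂ G z)
    (h1 : ∀ z ∈ B ×ˢ ball b₀ r, G z = 0 → fderiv ℂ G z ≠ 0 → ∀ k : K, fderiv ℂ G z (0, k) = 0)
    {a : Q} {b : K} (ha : a ∈ B) (hb : b ∈ ball b₀ r) (h0 : G (a, b) = 0)
    (hd : fderiv ℂ G (a, b) ≠ 0) {b' : K} (hb' : b' ∈ ball b₀ r) : G (a, b') = 0 := by
  have : CompleteSpace Q := FiniteDimensional.complete ℂ Q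
  have : CompleteSpace K := FiniteDimensional.complete ℂ K
  set k : K := b' - b with hk
  set γ : ℂ → Q × K := fun τ => (a, b + τ • k) with hγ
  set T : Set ℂ := {τ | b + τ • k ∈ ball b₀ r} with hT
  have hcont : Continuous fun τ : ℂ => b + τ • k := by fun_prop
  have hTo : IsOpen T := isOpen_ball.preimage hcont
  have hTc : Convex ℝ T := by
    intro s hs t ht x y hx hy hxy
    have h2 := (convex_ball b₀ r) hs ht hx hy hxy
    have h3 : x • (b + s • k) + y • (b + t • k) = b + (x • s + y • t) • k := by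
      have : x • b + y • b = b := by rw [← add_smul, hxy, one_smul]
      rw [smul_add, smul_add, add_smul, smul_assoc, smul_assoc]
      calc _ = (x • b + y • b) + (x • s • k + y • t • k) := by abel
        _ = _ := by rw [this]
    rw [h3] at h2
    exact h2
  have h0T : (0 : ℂ) ∈ T := by
    show b + (0 : ℂ) • k ∈ ball b₀ r
    simpa using hb
  have h1T : (1 : ℂ) ∈ T := by
    show b + (1 : ℂ) • k ∈ ball b₀ r
    simpa [hk] using hb'
  have hmem : ∀ τ ∈ T, γ τ ∈ B ×ˢ ball b₀ r := fun τ hτ => ⟨ha, hτ⟩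
  have hγd : ∀ τ, HasDerivAt γ ((0 : Q), k) τ := by
    intro τ
    have h2 : HasDerivAt (fun τ : ℂ => b + τ • k) k τ := by
      have := ((hasDerivAt_id τ).smul_const k).const_add b
      simpa using this
    exact (hasDerivAt_const τ a).prodMk h2
  have hder : ∀ τ ∈ T, HasDerivAt (fun τ => G (γ τ)) (fderiv ℂ G (γ τ) (0, k)) τ := by
    intro τ hτ
    exact HasFDerivAt.comp_hasDerivAt τ (hG _ (hmem τ hτ)).differentiableAt.hasFDerivAt (hγd τ)
  have hf : AnalyticOnNhd ℂ (fun τ => G (γ τ)) T :=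
    DifferentiableOn.analyticOnNhd
      (fun τ hτ => (hder τ hτ).differentiableAt.differentiableWithinAt) hTo
  set h : Q × K → ℂ := fun z => fderiv ℂ G z (0, k) with hh
  have hGab := hG (a, b) ⟨ha, hb⟩
  have hhz : AnalyticAt ℂ h (a, b) :=
    ((ContinuousLinearMap.apply ℂ ℂ ((0 : Q), k)).analyticAt _).fun_comp hGab.fderiv
  have ev : ∀ᶠ z in 𝓝 (a, b), G z = 0 → h z = 0 := by
    filter_upwards [(hB.prod isOpen_ball).mem_nhds (⟨ha, hb⟩ : (a, b) ∈ B ×ˢ ball b₀ r),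
      hGab.fderiv.continuousAt.eventually_ne hd] with z h2 h3 h4
    exact h1 z h2 h4 h3 k
  obtain ⟨C, hC⟩ := bound_of_zero hGab h0 hd hhz ev
  have hγ0 : γ 0 = (a, b) := by simp [hγ]
  have hγc : ContinuousAt (fun x : ℝ => γ x) 0 := by
    have : Continuous γ := by fun_prop
    exact (this.comp Complex.continuous_ofReal).continuousAt
  have hnear : ∀ᶠ x : ℝ in 𝓝 0, (x : ℂ) ∈ T ∧ ‖h (γ x)‖ ≤ C * ‖G (γ x)‖ := by
    have e1 : ∀ᶠ x : ℝ in 𝓝 0, (x : ℂ) ∈ T := by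
      have : ContinuousAt (fun x : ℝ => (x : ℂ)) 0 := Complex.continuous_ofReal.continuousAt
      exact this.eventually (hTo.mem_nhds (by simpa using h0T))
    have e2 : ∀ᶠ x : ℝ in 𝓝 0, ‖h (γ x)‖ ≤ C * ‖G (γ x)‖ := by
      refine hγc.eventually (p := fun z => ‖h z‖ ≤ C * ‖G z‖) ?_
      simpa [hγ0] using hC
    exact e1.and e2
  obtain ⟨δ, hδ, hball⟩ := Metric.eventually_nhds_iff_ball.1 hnear
  have hin : ∀ x ∈ Icc (0 : ℝ) (δ / 2), x ∈ ball (0 : ℝ) δ := by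
    intro x hx
    rw [mem_ball, Real.dist_eq, sub_zero, abs_of_nonneg hx.1]
    linarith [hx.2]
  have hzero : ∀ x ∈ Icc (0 : ℝ) (δ / 2), G (γ x) = 0 := by
    refine eq_zero_of_abs_deriv_le_mul_abs_self_of_eq_zero_right (K := C)
      (f := fun x : ℝ => G (γ x)) (f' := fun x : ℝ => h (γ x)) ?_ ?_ ?_ ?_
    · intro x hx
      exact ((hder x (hball x (hin x hx)).1).comp_ofReal).continuousAt.continuousWithinAt
    · intro x hx
      exact ((hder x (hball x (hin x ⟨hx.1, hx.2.le⟩)).1).comp_ofReal).hasDerivWithinAt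
    · show G (γ ((0 : ℝ) : ℂ)) = 0
      rw [Complex.ofReal_zero, hγ0]
      exact h0
    · intro x hx
      exact (hball x (hin x ⟨hx.1, hx.2.le⟩)).2
  have hfreq : ∃ᶠ τ in 𝓝[≠] (0 : ℂ), G (γ τ) = 0 := by
    have t1 : Tendsto (fun x : ℝ => (x : ℂ)) (𝓝[>] 0) (𝓝[≠] 0) := by
      refine tendsto_nhdsWithin_iff.2 ⟨?_, ?_⟩
      · have : Tendsto (fun x : ℝ => (x : ℂ)) (𝓝 0) (𝓝 ((0 : ℝ) : ℂ)) :=
          Complex.continuous_ofReal.tendsto 0
        rw [Complex.ofReal_zero] at this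
        exact this.mono_left nhdsWithin_le_nhds
      · filter_upwards [self_mem_nhdsWithin] with x hx
        exact Complex.ofReal_ne_zero.2 (ne_of_gt hx)
    have t2 : ∀ᶠ x : ℝ in 𝓝[>] 0, G (γ x) = 0 := by
      filter_upwards [Ioo_mem_nhdsGT (show (0 : ℝ) < δ / 2 by linarith)] with x hx
      exact hzero x ⟨hx.1.le, hx.2.le⟩
    exact t1.frequently (t2.frequently)
  have := hf.eqOn_zero_of_preconnected_of_frequently_eq_zero hTc.isPreconnected h0T hfreq h1T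
  have h2 : γ 1 = (a, b') := by simp [hγ, hk]
  simpa [h2] using this

end

section

variable {V Q : Type} [NormedAddCommGroup V] [NormedSpace ℂ V] [FiniteDimensional ℂ V]
  [NormedAddCommGroup Q] [NormedSpace ℂ Q] [FiniteDimensional ℂ Q]

/-- **the local lemma** -/
theorem exists_sub {W : Set V} (hW : IsOpen W) {F : V → Q} {G : V → ℂ}
    (hF : ∀ v ∈ W, AnalyticAt ℂ F v) (hG : ∀ v ∈ W, AnalyticAt ℂ G v) {v₁ : V} (hv₁ : v₁ ∈ W)
    (hs : Function.Surjective (fderiv ℂ F v₁))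
    (red : ∀ v ∈ W, G v = 0 → ∀ N ∈ 𝓝 v, ∃ v' ∈ N, G v' = 0 ∧ fderiv ℂ G v' ≠ 0)
    (dom : ∀ N ∈ 𝓝 v₁, F '' {v | v ∈ N ∧ G v = 0} ∈ 𝓝 (F v₁))
    (ne : ¬ ∀ᶠ v in 𝓝 v₁, G v = 0) :
    ∃ v ∈ W, G v = 0 ∧ fderiv ℂ G v ≠ 0 ∧
      ∀ η : Q, ∃ ξ, fderiv ℂ G v ξ = 0 ∧ fderiv ℂ F v ξ = η := by
  have : CompleteSpace V := FiniteDimensional.complete ℂ V
  have : CompleteSpace Q := FiniteDimensional.complete ℂ Q
  by_contra hcon
  push Not at hcon
  obtain ⟨κ, R, hRa, hR0, hRr, hRl⟩ := exists_straight (hF v₁ hv₁) hs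
  have hRt : Tendsto R (𝓝 (F v₁, κ v₁)) (𝓝 v₁) := by
    have := hRa.continuousAt.tendsto
    rwa [hR0] at this
  have good : ∀ᶠ q in 𝓝 (F v₁, κ v₁), AnalyticAt ℂ R q ∧ (∀ᶠ q' in 𝓝 q, F (R q') = q'.1) ∧
      R q ∈ W :=
    hRa.eventually_analyticAt.and (hRr.eventually_nhds.and (hRt.eventually (hW.mem_nhds hv₁)))
  obtain ⟨r, hr, hgood⟩ := Metric.eventually_nhds_iff_ball.1 good
  rw [← ball_prod_same] at hgood
  set Gt : Q × LinearMap.ker (fderiv ℂ F v₁ : V →ₗ[ℂ] Q) → ℂ := fun q => G (R q) with hGt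
  have hGa : ∀ z ∈ ball (F v₁) r ×ˢ ball (κ v₁) r, AnalyticAt ℂ Gt z := fun z hz =>
    AnalyticAt.fun_comp (g := G) (f := R) (hG _ (hgood z hz).2.2) (hgood z hz).1
  have key : ∀ z ∈ ball (F v₁) r ×ˢ ball (κ v₁) r, Gt z = 0 → fderiv ℂ Gt z ≠ 0 →
      ∀ k, fderiv ℂ Gt z (0, k) = 0 := by
    intro z hz hz0 hzd k
    by_contra hk
    obtain ⟨g1, g2, g3⟩ := hgood z hz
    have hR' := g1.differentiableAt.hasFDerivAt
    have c1 : fderiv ℂ Gt z = (fderiv ℂ G (R z)).comp (fderiv ℂ R z) :=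
      ((hG _ g3).differentiableAt.hasFDerivAt.comp z hR').fderiv
    have c2 : (fderiv ℂ F (R z)).comp (fderiv ℂ R z) =
        ContinuousLinearMap.fst ℂ Q (LinearMap.ker (fderiv ℂ F v₁ : V →ₗ[ℂ] Q)) := by
      have e1 : HasFDerivAt (fun q => F (R q)) ((fderiv ℂ F (R z)).comp (fderiv ℂ R z)) z :=
        (hF _ g3).differentiableAt.hasFDerivAt.comp z hR'
      have e2 : HasFDerivAt (fun q => F (R q))
          (ContinuousLinearMap.fst ℂ Q (LinearMap.ker (fderiv ℂ F v₁ : V →ₗ[ℂ] Q))) z :=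
        hasFDerivAt_fst.congr_of_eventuallyEq g2
      exact e1.unique e2
    have hGne : fderiv ℂ G (R z) ≠ 0 := by
      intro h
      apply hzd
      rw [c1, h, ContinuousLinearMap.zero_comp]
    obtain ⟨η, hη⟩ := hcon (R z) g3 hz0 hGne
    set c : ℂ := fderiv ℂ Gt z (η, 0) / fderiv ℂ Gt z (0, k) with hc
    have d1 : ∀ w, fderiv ℂ G (R z) (fderiv ℂ R z w) = fderiv ℂ Gt z w := fun w => by
      rw [c1]; rfl
    have d2 : ∀ w, fderiv ℂ F (R z) (fderiv ℂ R z w) = w.1 := fun w => by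
      have := congrArg (fun T : (Q × LinearMap.ker (fderiv ℂ F v₁ : V →ₗ[ℂ] Q)) →L[ℂ] Q => T w) c2
      exact this
    refine hη (fderiv ℂ R z (η, 0) - c • fderiv ℂ R z (0, k)) ?_ ?_
    · rw [map_sub, map_smul, d1, d1, smul_eq_mul, hc, div_mul_cancel₀ _ hk, sub_self]
    · rw [map_sub, map_smul, d2, d2]
      simp
  apply ne
  have hFc : ContinuousAt F v₁ := (hF v₁ hv₁).continuousAt
  have hpc : Tendsto (fun x => (F x, κ x)) (𝓝 v₁) (𝓝 (F v₁, κ v₁)) :=
    (hFc.prodMk κ.continuous.continuousAt).tendsto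
  have hN : ∀ᶠ x in 𝓝 v₁, x ∈ W ∧ (F x, κ x) ∈ ball (F v₁) r ×ˢ ball (κ v₁) r ∧
      ∀ᶠ x' in 𝓝 x, R (F x', κ x') = x' := by
    have e0 : ∀ᶠ x in 𝓝 v₁, x ∈ W := hW.mem_nhds hv₁
    have e1 : ∀ᶠ x in 𝓝 v₁, (F x, κ x) ∈ ball (F v₁) r ×ˢ ball (κ v₁) r :=
      hpc.eventually ((isOpen_ball.prod isOpen_ball).mem_nhds
        (⟨mem_ball_self hr, mem_ball_self hr⟩ :
          (F v₁, κ v₁) ∈ ball (F v₁) r ×ˢ ball (κ v₁) r))
    exact e0.and (e1.and hRl.eventually_nhds)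
  obtain ⟨N, hN1, hNo, hvN⟩ := _root_.eventually_nhds_iff.1 hN
  have stepA : ∀ v ∈ N, G v = 0 → ∀ b ∈ ball (κ v₁) r, Gt (F v, b) = 0 := by
    intro v hv hv0 b hb
    by_contra hne
    obtain ⟨n1, n2, n3⟩ := hN1 v hv
    have c1 : ContinuousAt (fun v' => Gt (F v', b)) v := by
      have e1 : ContinuousAt Gt (F v, b) := (hGa (F v, b) ⟨n2.1, hb⟩).continuousAt
      have e2 : ContinuousAt (fun v' => (F v', b)) v :=
        (hF v n1).continuousAt.prodMk continuousAt_const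
      exact ContinuousAt.comp (g := Gt) (f := fun v' => (F v', b)) e1 e2
    have e3 : ∀ᶠ v' in 𝓝 v, Gt (F v', b) ≠ 0 ∧ v' ∈ N :=
      (c1.eventually_ne hne).and (hNo.mem_nhds hv)
    obtain ⟨v', ⟨m1, m2⟩, m3, m4⟩ := red v n1 hv0 _ e3
    obtain ⟨p1, p2, p3⟩ := hN1 v' m2
    apply m1
    have q1 : Gt (F v', κ v') = 0 := by
      show G (R (F v', κ v')) = 0
      rw [p3.self_of_nhds]
      exact m3
    refine sat isOpen_ball hGa key p2.1 p2.2 q1 ?_ hb
    intro h0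
    apply m4
    have e4 : HasFDerivAt (fun x => Gt (F x, κ x))
        ((fderiv ℂ Gt (F v', κ v')).comp ((fderiv ℂ F v').prod κ)) v' :=
      HasFDerivAt.comp (g := Gt) (f := fun x => (F x, κ x)) v'
        (hGa _ p2).differentiableAt.hasFDerivAt
        ((hF v' p1).differentiableAt.hasFDerivAt.prodMk κ.hasFDerivAt)
    have e5 : G =ᶠ[𝓝 v'] fun x => Gt (F x, κ x) := by
      filter_upwards [p3] with x hx
      show G x = G (R (F x, κ x))
      rw [hx]
    rw [e5.fderiv_eq, e4.fderiv, h0, ContinuousLinearMap.zero_comp]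
  have hdom := dom N (hNo.mem_nhds hvN)
  filter_upwards [hNo.mem_nhds hvN, hFc.eventually hdom] with x hx hx2
  obtain ⟨v, ⟨hv, hv0⟩, hvF⟩ := hx2
  obtain ⟨n1, n2, n3⟩ := hN1 x hx
  have := stepA v hv hv0 (κ x) n2.2
  rw [hvF] at this
  have h3 : Gt (F x, κ x) = G x := by
    show G (R (F x, κ x)) = G x
    rw [n3.self_of_nhds]
  rw [← h3]
  exact this

end

end Vale.Agent.P281.H495.TW
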